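import Vale.Agent.P207Z.Calc.Flat

/-!
# P207: little-o calculus, bounded maps of class `C^k`
-/

set_option linter.all false

open Set Filter Topology Metric Asymptotics
open scoped ContDiff

noncomputable section

namespace Vale.Agent.P207Z

variable {V V' W W' W'' F F' G G' G'' : Type} [NormedAddCommGroup V] [NormedSpace ℝ V]
  [NormedAddCommGroup V'] [NormedSpace ℝ V'] [NormedAddCommGroup W] [NormedSpace ℝ W]
  [NormedAddCommGroup W'] [NormedSpace ℝ W'] [NormedAddCommGroup W''] [NormedSpace ℝ W'']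
  [NormedAddCommGroup F] [NormedSpace ℝ F] [NormedAddCommGroup F'] [NormedSpace ℝ F']
  [NormedAddCommGroup G] [NormedSpace ℝ G] [NormedAddCommGroup G'] [NormedSpace ℝ G']
  [NormedAddCommGroup G''] [NormedSpace ℝ G'']
  {k r n : ℕ} {f g : V → W} {z : V}

theorem CkB.mono {n' : ℕ} (h : CkB k n f) (hr : r ≤ k) (hn : n ≤ n') : CkB r n' f :=
  ⟨(h.smooth.of_le (by exact_mod_cast hr)).mono (ball_subset_ball (rad_anti hn)),
    fun i hi q hq => (h.bd i (hi.trans hr) q (ball_subset_ball (rad_anti hn) hq)).trans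
      (by exact_mod_cast hn)⟩
theorem CkB.contDiffAt (h : CkB k n f) {q : V} (hq : q ∈ ball (0 : V) (rad n)) :
    ContDiffAt ℝ k f q := h.smooth.contDiffAt (isOpen_ball.mem_nhds hq)
theorem CkB.continuousAt (h : CkB k n f) {q : V} (hq : q ∈ ball (0 : V) (rad n)) :
    ContinuousAt f q := (h.contDiffAt hq).continuousAt
theorem CkB.norm_le (h : CkB k n f) {q : V} (hq : q ∈ ball (0 : V) (rad n)) : ‖f q‖ ≤ n := by
  simpa only [norm_iteratedFDeriv_zero] using h.bd 0 (Nat.zero_le k) q hq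
theorem CkB.congr (h : CkB k n f) (e : EqOn g f (ball 0 (rad n))) : CkB k n g := by
  refine ⟨h.smooth.congr e, fun i hi q hq => ?_⟩
  rw [((e.eventuallyEq_of_mem (isOpen_ball.mem_nhds hq)).iteratedFDeriv ℝ i).self_of_nhds]
  exact h.bd i hi q hq

namespace CalcAux

theorem cast_le {i k : ℕ} (h : i ≤ k) : (i : WithTop ℕ∞) ≤ k := by exact_mod_cast h

theorem exists_bd (C : ℕ → ℝ) (k n : ℕ) : ∃ n' ≥ n, ∀ i ≤ k, C i ≤ n' := by
  obtain ⟨m, hm⟩ := exists_nat_ge (∑ i ∈ Finset.range (k + 1), |C i|)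
  refine ⟨n + m, Nat.le_add_right _ _, fun i hi => ?_⟩
  have h1 := Finset.single_le_sum (f := fun i => |C i|) (fun _ _ => abs_nonneg _)
    (Finset.mem_range.2 (Nat.lt_succ_of_le hi))
  have h2 : (0 : ℝ) ≤ n := Nat.cast_nonneg n
  push_cast
  linarith [le_abs_self (C i)]

/-- uniform bounds on a smaller ball -/
theorem exists_ckB (C : ℕ → ℝ) (k n : ℕ) {ε : ℝ} (hε : 0 < ε) : ∃ n' ≥ n, rad n' ≤ ε ∧
    ∀ f : V → W, ContDiffOn ℝ k f (ball 0 (rad n')) →
      (∀ i ≤ k, ∀ q ∈ ball (0 : V) (rad n'), ‖iteratedFDeriv ℝ i f q‖ ≤ C i) → CkB k n' f := by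
  obtain ⟨m, hm⟩ := exists_rad_le hε
  obtain ⟨n', h1, h2⟩ := exists_bd C k (n + m)
  exact ⟨n', by omega, hm n' (by omega), fun f hf h =>
    ⟨hf, fun i hi q hq => (h i hi q hq).trans (h2 i hi)⟩⟩

theorem comp_bd {Φ : W → W'} {s : Set V} {t : Set W} (hΦ : ContDiffOn ℝ k Φ t)
    (hf : ContDiffOn ℝ k f s) (hs : IsOpen s) (ht : IsOpen t) (hm : MapsTo f s t) {q : V}
    (hq : q ∈ s) {C : ℝ} (hC : ∀ j ≤ k, ‖iteratedFDeriv ℝ j Φ (f q)‖ ≤ C)
    (hD : ∀ j ≤ k, ‖iteratedFDeriv ℝ j f q‖ ≤ n) {i : ℕ} (hi : i ≤ k) :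
    ‖iteratedFDeriv ℝ i (fun q => Φ (f q)) q‖ ≤ i.factorial * C * ((n : ℝ) + 1) ^ i := by
  rw [← iteratedFDerivWithin_of_isOpen i hs hq]
  refine norm_iteratedFDerivWithin_comp_le hΦ hf (cast_le hi) ht.uniqueDiffOn hs.uniqueDiffOn hm hq
    (fun j hj => ?_) fun j h1 hj => ?_
  · rw [iteratedFDerivWithin_of_isOpen j ht (hm hq)]
    exact hC j (hj.trans hi)
  · rw [iteratedFDerivWithin_of_isOpen j hs hq]
    refine (hD j (hj.trans hi)).trans ((le_add_of_nonneg_right zero_le_one).trans ?_)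
    exact le_self_pow₀ (le_add_of_nonneg_left (Nat.cast_nonneg n)) (by omega)

theorem lip_iter (h : CkB (k + 1) n f) {q : V} (hq : q ∈ ball (0 : V) (rad n)) {i : ℕ}
    (hi : i ≤ k) : ‖iteratedFDeriv ℝ i f q - iteratedFDeriv ℝ i f 0‖ ≤ n * ‖q‖ := by
  have := (convex_ball (0 : V) (rad n)).norm_image_sub_le_of_norm_fderiv_le (𝕜 := ℝ)
    (f := iteratedFDeriv ℝ i f) (C := n)
    (fun x hx => (h.contDiffAt hx).differentiableAt_iteratedFDeriv
      (by exact_mod_cast Nat.lt_succ_of_le hi))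
    (fun x hx => by rw [norm_fderiv_iteratedFDeriv]; exact h.bd _ (by omega) x hx)
    (mem_ball_self (rad_pos n)) hq
  rwa [sub_zero] at this

theorem lip_zero (h : CkB (k + 1) n f) {q : V} (hq : q ∈ ball (0 : V) (rad n)) :
    ‖f q - f 0‖ ≤ n * ‖q‖ := by
  have := (convex_ball (0 : V) (rad n)).norm_image_sub_le_of_norm_fderiv_le (𝕜 := ℝ)
    (f := f) (C := n)
    (fun x hx => (h.contDiffAt hx).differentiableAt (by simp))
    (fun x hx => by rw [← norm_iteratedFDeriv_one]; exact h.bd _ (by omega) x hx)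
    (mem_ball_self (rad_pos n)) hq
  rwa [sub_zero] at this

theorem lip_lt (h : CkB (k + 1) n f) {δ : ℝ} {n' : ℕ} (hn : n ≤ n') (hδ : rad n' ≤ δ * rad n)
    {q : V} (hq : q ∈ ball (0 : V) (rad n')) : ‖f q - f 0‖ < δ := by
  have h1 := lip_zero h (ball_subset_ball (rad_anti hn) hq)
  rw [mem_ball_zero_iff] at hq
  have h2 : ((n : ℝ) + 1) * rad n = 1 := mul_inv_cancel₀ (by positivity)
  have h3 : ((n : ℝ) + 1) * ‖q‖ < ((n : ℝ) + 1) * (δ * rad n) :=
    mul_lt_mul_of_pos_left (hq.trans_le hδ) (by positivity)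
  rw [mul_left_comm, h2, mul_one] at h3
  nlinarith [norm_nonneg q]

end CalcAux

open CalcAux

theorem CkB.of_contDiffAt (h : ContDiffAt ℝ k f 0) : ∃ n, CkB k n f := by
  obtain ⟨u, hu, hc⟩ := h.contDiffOn le_rfl (by simp)
  have h1 : ∀ᶠ q in 𝓝 (0 : V), ∀ i ∈ Finset.range (k + 1),
      ‖iteratedFDeriv ℝ i f q‖ ≤ ‖iteratedFDeriv ℝ i f 0‖ + 1 :=
    (Finset.eventually_all _).2 fun i hi => ev_bd (h.continuousAt_iteratedFDeriv
      (cast_le (Nat.lt_succ_iff.1 (Finset.mem_range.1 hi))))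
  obtain ⟨ε, hε, hb⟩ := Metric.mem_nhds_iff.1 (inter_mem hu h1)
  obtain ⟨n, -, h2, h3⟩ := exists_ckB (V := V) (W := W) (fun i => ‖iteratedFDeriv ℝ i f 0‖ + 1)
    k 0 hε
  have hs := (ball_subset_ball h2).trans hb
  exact ⟨n, h3 f (hc.mono fun q hq => (hs hq).1) fun i hi q hq =>
    (hs hq).2 i (Finset.mem_range.2 (Nat.lt_succ_of_le hi))⟩
theorem CkB.const (c : W) (h : ‖c‖ ≤ n) : CkB k n fun _ : V => c := by
  refine ⟨contDiffOn_const, fun i _ q _ => ?_⟩
  rcases eq_or_ne i 0 with rfl | hi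
  · rwa [norm_iteratedFDeriv_zero]
  · rw [iteratedFDeriv_const_of_ne hi, Pi.zero_apply, norm_zero]
    exact Nat.cast_nonneg n
theorem CkB.lip (h : CkB (k + 1) n f) {q : V} (hq : q ∈ ball (0 : V) (rad n)) :
    ‖jet k f q - jet k f 0‖ ≤ n * ‖q‖ :=
  (pi_norm_le_iff_of_nonneg (by positivity)).2 fun i => lip_iter h hq (Nat.lt_succ_iff.1 i.2)
theorem CkB.fderiv (h : CkB (k + 1) n f) : CkB k n (fderiv ℝ f) :=
  ⟨h.smooth.fderiv_of_isOpen isOpen_ball (by exact_mod_cast le_rfl), fun i hi q hq => by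
    rw [norm_iteratedFDeriv_fderiv]; exact h.bd _ (by omega) q hq⟩
theorem CkB.add (h : CkB k n f) (h' : CkB k n g) : CkB k (2 * n) fun q => f q + g q := by
  have hs : ball (0 : V) (rad (2 * n)) ⊆ ball 0 (rad n) := ball_subset_ball (rad_anti (by omega))
  refine ⟨(h.smooth.add h'.smooth).mono hs, fun i hi q hq => ?_⟩
  rw [fun_iteratedFDeriv_add_apply ((h.contDiffAt (hs hq)).of_le (cast_le hi))
    ((h'.contDiffAt (hs hq)).of_le (cast_le hi))]
  refine (norm_add_le _ _).trans ?_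
  push_cast
  linarith [h.bd i hi q (hs hq), h'.bd i hi q (hs hq)]
theorem CkB.sub (h : CkB k n f) (h' : CkB k n g) : CkB k (2 * n) fun q => f q - g q := by
  have hs : ball (0 : V) (rad (2 * n)) ⊆ ball 0 (rad n) := ball_subset_ball (rad_anti (by omega))
  refine ⟨(h.smooth.sub h'.smooth).mono hs, fun i hi q hq => ?_⟩
  rw [fun_iteratedFDeriv_sub_apply ((h.contDiffAt (hs hq)).of_le (cast_le hi))
    ((h'.contDiffAt (hs hq)).of_le (cast_le hi))]
  refine (norm_sub_le _ _).trans ?_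
  push_cast
  linarith [h.bd i hi q (hs hq), h'.bd i hi q (hs hq)]
theorem CkB.prod {g : V → W'} (h : CkB k n f) (h' : CkB k n g) :
    CkB k n fun q => (f q, g q) := by
  refine ⟨h.smooth.prodMk h'.smooth, fun i hi q hq => ?_⟩
  rw [iteratedFDeriv_prodMk (h.contDiffAt hq) (h'.contDiffAt hq) (cast_le hi),
    ContinuousMultilinearMap.opNorm_prod]
  exact max_le (h.bd i hi q hq) (h'.bd i hi q hq)
theorem ckB_clm (L : W →L[ℝ] W') (k n : ℕ) :
    ∃ n' ≥ n, ∀ f : V → W, CkB k n f → CkB k n' fun q => L (f q) := by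
  obtain ⟨n', h1, -, h3⟩ := exists_ckB (V := V) (W := W') (fun _ => ‖L‖ * n) k n one_pos
  have hs : ball (0 : V) (rad n') ⊆ ball 0 (rad n) := ball_subset_ball (rad_anti h1)
  refine ⟨n', h1, fun f h => h3 _ ((L.contDiff.comp_contDiffOn h.smooth).mono hs)
    fun i hi q hq => ?_⟩
  exact (L.norm_iteratedFDeriv_comp_left (h.contDiffAt (hs hq)) (cast_le hi)).trans
    (mul_le_mul_of_nonneg_left (h.bd i hi q (hs hq)) (norm_nonneg _))
theorem ckB_bilin (B : W →L[ℝ] W' →L[ℝ] W'') (k n : ℕ) : ∃ n' ≥ n, ∀ (f : V → W) (g : V → W'),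
    CkB k n f → CkB k n g → CkB k n' fun q => B (f q) (g q) := by
  obtain ⟨n', h1, -, h3⟩ := exists_ckB (V := V) (W := W'')
    (fun i => ‖B‖ * ∑ j ∈ Finset.range (i + 1), (i.choose j : ℝ) * n * n) k n one_pos
  have hs : ball (0 : V) (rad n') ⊆ ball 0 (rad n) := ball_subset_ball (rad_anti h1)
  refine ⟨n', h1, fun f g h h' => h3 _
    (((B.contDiff.comp_contDiffOn h.smooth).clm_apply h'.smooth).mono hs) fun i hi q hq => ?_⟩
  rw [← iteratedFDerivWithin_of_isOpen i isOpen_ball (hs hq)]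
  refine (B.norm_iteratedFDerivWithin_le_of_bilinear h.smooth h'.smooth isOpen_ball.uniqueDiffOn
    (hs hq) (cast_le hi)).trans (mul_le_mul_of_nonneg_left (Finset.sum_le_sum fun j hj => ?_)
      (norm_nonneg B))
  have hj' := Finset.mem_range.1 hj
  rw [iteratedFDerivWithin_of_isOpen j isOpen_ball (hs hq),
    iteratedFDerivWithin_of_isOpen (i - j) isOpen_ball (hs hq)]
  exact mul_le_mul (mul_le_mul_of_nonneg_left (h.bd j (by omega) q (hs hq)) (Nat.cast_nonneg _))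
    (h'.bd _ (by omega) q (hs hq)) (norm_nonneg _) (by positivity)
/-- composition with a map which fixes `0` -/
theorem ckB_comp (k n : ℕ) : ∃ n' ≥ n, ∀ (f : V → W) (τ : V' → V), CkB k n f → CkB (k + 1) n τ →
    τ 0 = 0 → CkB k n' (fun q => f (τ q)) ∧ MapsTo τ (ball 0 (rad n')) (ball 0 (rad n)) := by
  obtain ⟨n', h1, h2, h3⟩ := exists_ckB (V := V') (W := W)
    (fun i => i.factorial * n * ((n : ℝ) + 1) ^ i) k n (mul_pos (rad_pos n) (rad_pos n))
  refine ⟨n', h1, fun f τ h hτ h0 => ?_⟩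
  have hm : MapsTo τ (ball 0 (rad n')) (ball 0 (rad n)) := fun q hq => by
    have := lip_lt hτ h1 h2 hq
    rwa [h0, sub_zero, ← mem_ball_zero_iff] at this
  have hs : ball (0 : V') (rad n') ⊆ ball 0 (rad n) := ball_subset_ball (rad_anti h1)
  have hc : ContDiffOn ℝ k τ (ball 0 (rad n')) := (hτ.mono (Nat.le_succ k) h1).smooth
  exact ⟨h3 _ (h.smooth.comp hc hm) fun i hi q hq => comp_bd h.smooth hc isOpen_ball isOpen_ball
    hm hq (fun j hj => h.bd j hj _ (hm hq)) (fun j hj => hτ.bd j (by omega) q (hs hq)) hi, hm⟩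
/-- composition with a fixed smooth map, near a compact set -/
theorem ckB_map [FiniteDimensional ℝ W] {Φ : W → W'} {O K : Set W} (hO : IsOpen O)
    (hΦ : ContDiffOn ℝ ∞ Φ O) (hK : IsCompact K) (hKO : K ⊆ O) (k n : ℕ) :
    ∃ n' ≥ n, ∀ f : V → W, CkB (k + 1) n f → f 0 ∈ K →
      CkB (k + 1) n' (fun q => Φ (f q)) ∧ MapsTo f (ball 0 (rad n')) O := by
  have := FiniteDimensional.proper_real W
  obtain ⟨δ, hδ, hd⟩ := hK.exists_cthickening_subset_open hO hKO
  have hΦ' : ContDiffOn ℝ (k + 1 : ℕ) Φ O := hΦ.of_le (by exact_mod_cast le_top)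
  have hb : ∀ j, ∃ C : ℝ, j ≤ k + 1 → ∀ y ∈ cthickening δ K, ‖iteratedFDeriv ℝ j Φ y‖ ≤ C := by
    intro j
    by_cases hj : j ≤ k + 1
    · obtain ⟨C, hC⟩ := (hK.cthickening (r := δ)).exists_bound_of_continuousOn
        (f := iteratedFDeriv ℝ j Φ) fun y hy =>
          ((hΦ'.contDiffAt (hO.mem_nhds (hd hy))).continuousAt_iteratedFDeriv
            (cast_le hj)).continuousWithinAt
      exact ⟨C, fun _ => hC⟩
    · exact ⟨0, fun h => absurd h hj⟩
  choose C hC using hb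
  obtain ⟨m, -, hm⟩ := exists_bd C (k + 1) 0
  obtain ⟨n', h1, h2, h3⟩ := exists_ckB (V := V) (W := W')
    (fun i => i.factorial * m * ((n : ℝ) + 1) ^ i) (k + 1) n (mul_pos hδ (rad_pos n))
  refine ⟨n', h1, fun f h h0 => ?_⟩
  have hm' : MapsTo f (ball 0 (rad n')) (cthickening δ K) := fun q hq =>
    mem_cthickening_of_dist_le _ _ _ _ h0 (by rw [dist_eq_norm]; exact (lip_lt h h1 h2 hq).le)
  have hm'' := hm'.mono_right hd
  have hs : ball (0 : V) (rad n') ⊆ ball 0 (rad n) := ball_subset_ball (rad_anti h1)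
  have hc := h.smooth.mono hs
  exact ⟨h3 _ (hΦ'.comp hc hm'') fun i hi q hq => comp_bd hΦ' hc isOpen_ball hO hm'' hq
    (fun j hj => (hC j hj _ (hm' hq)).trans (hm j hj)) (fun j hj => h.bd j hj q (hs hq)) hi, hm''⟩
theorem Prj.mono {P : V → F →L[ℝ] F} {n' : ℕ} (h : Prj k n P) (hr : r ≤ k) (hn : n ≤ n') :
    Prj r n' P := ⟨h.ckb.mono hr hn, fun q hq => h.idem q (ball_subset_ball (rad_anti hn) hq)⟩
theorem Prj.ev_idem {P : V → F →L[ℝ] F} (h : Prj k n P) {q : V} (hq : q ∈ ball (0 : V) (rad n)) :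
    ∀ᶠ q' in 𝓝 q, P q' * P q' = P q' :=
  mem_of_superset (isOpen_ball.mem_nhds hq) h.idem
theorem Prj.rank [FiniteDimensional ℝ F] {P : V → F →L[ℝ] F} (h : Prj k n P) {q : V}
    (hq : q ∈ ball (0 : V) (rad n)) :
    Module.finrank ℝ (P q).range = Module.finrank ℝ (P 0).range := by
  have ht : Continuous fun A : F →L[ℝ] F => LinearMap.trace ℝ F (A : F →ₗ[ℝ] F) :=
    LinearMap.continuous_of_finiteDimensional
      (LinearMap.trace ℝ F ∘ₗ ContinuousLinearMap.coeLM ℝ)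
  have h1 : ∀ x ∈ ball (0 : V) (rad n), LinearMap.trace ℝ F (P x : F →ₗ[ℝ] F) =
      (Module.finrank ℝ (P x).range : ℝ) := fun x hx => by
    refine LinearMap.IsProj.trace ⟨fun v => ⟨v, rfl⟩, ?_⟩
    rintro _ ⟨v, rfl⟩
    change (P x * P x) v = P x v
    rw [h.idem x hx]
  have h2 : ContinuousOn (fun x => Module.finrank ℝ (P x).range) (ball (0 : V) (rad n)) := by
    rw [Nat.isUniformEmbedding_coe_real.isEmbedding.isInducing.continuousOn_iff]
    exact (ht.comp_continuousOn h.ckb.smooth.continuousOn).congr fun x hx => (h1 x hx).symm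
  exact (convex_ball (0 : V) (rad n)).isPreconnected.constant h2 hq (mem_ball_self (rad_pos n))

end Vale.Agent.P207Z
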