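import Vale.Agent.P207Z.Calc.Flat

/-!
# P207: little-o calculus, systems of equations
-/

set_option linter.all false

open Set Filter Topology Metric Asymptotics
open scoped ContDiff

noncomputable section

namespace Vale.Agent.P207Z

variable {V V' W W' W'' F F' G G' G'' : Type} [NormedAddCommGroup V] [NormedSpace ℝ V]
  [NormedAddCommGroup V'] [NormedSpace ℝ V'] [NormedAddCommGroup W] [NormedSpace ℝ W]
  [NormedAddCommGroup W'] [NormedSpace ℝ W'] [NormedAddCommGroup W''] [NormedSpace ℝ W'']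
  [NormedAddCommGroup F] [NormedSpace ℝ F] [NormedAddCommGroup F'] [NormedSpace ℝ F']
  [NormedAddCommGroup G] [NormedSpace ℝ G] [NormedAddCommGroup G'] [NormedSpace ℝ G']
  [NormedAddCommGroup G''] [NormedSpace ℝ G'']
  {k r n : ℕ} {f g : V → W} {z : V}

open CalcAux

variable {M : V → F →L[ℝ] G} {M' : V → F →L[ℝ] G'} {M'' : V → F →L[ℝ] G''}

theorem Dom.pos (h : Dom k M M') : ∃ (C : ℝ) (ε : V → ℝ), 0 ≤ C ∧ (∀ q, 0 ≤ ε q) ∧ Flat k ε 0 ∧
    ∀ᶠ q in 𝓝 (0 : V), ∀ v, ‖M q v‖ ≤ C * ‖M' q v‖ + ε q * ‖v‖ := by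
  obtain ⟨C, ε, h1, h2⟩ := h
  refine ⟨|C|, fun q => ‖ε q‖, abs_nonneg _, fun _ => norm_nonneg _, h1.norm,
    h2.mono fun q hq v => (hq v).trans (add_le_add ?_ ?_)⟩
  · exact mul_le_mul_of_nonneg_right (le_abs_self _) (norm_nonneg _)
  · exact mul_le_mul_of_nonneg_right (le_abs_self _) (norm_nonneg _)
theorem Dom.of_le (C : ℝ) (h : ∀ᶠ q in 𝓝 (0 : V), ∀ v, ‖M q v‖ ≤ C * ‖M' q v‖) : Dom k M M' :=
  ⟨C, fun _ => 0, Flat.zero, h.mono fun q hq v => by simpa using hq v⟩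
theorem Dom.refl (M : V → F →L[ℝ] G) : Dom k M M :=
  Dom.of_le 1 (Eventually.of_forall fun q v => by rw [one_mul])
theorem Dom.trans (h : Dom k M M') (h' : Dom k M' M'') : Dom k M M'' := by
  obtain ⟨C, ε, hC, -, h1, h2⟩ := h.pos
  obtain ⟨C', ε', h1', h2'⟩ := h'
  refine ⟨C * C', fun q => C * ε' q + ε q, (h1'.const_mul C).add h1, ?_⟩
  filter_upwards [h2, h2'] with q a b v
  have := mul_le_mul_of_nonneg_left (b v) hC
  linarith [a v]
theorem Dom.mono (h : Dom k M M') (hr : r ≤ k) : Dom r M M' :=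
  let ⟨C, ε, h1, h2⟩ := h; ⟨C, ε, h1.mono hr, h2⟩
theorem Dom.congr {N : V → F →L[ℝ] G} {N' : V → F →L[ℝ] G'} (h : Dom k M M')
    (e : N =ᶠ[𝓝 0] M) (e' : N' =ᶠ[𝓝 0] M') : Dom k N N' := by
  obtain ⟨C, ε, h1, h2⟩ := h
  refine ⟨C, ε, h1, ?_⟩
  filter_upwards [h2, e, e'] with q a b c
  rwa [b, c]
theorem Dom.of_flat {N : V → F →L[ℝ] G} (h : Flat k (fun q => M q - N q) 0) : Dom k M N := by
  refine ⟨1, _, h.norm, Eventually.of_forall fun q v => ?_⟩
  have h1 : ‖M q v - N q v‖ ≤ ‖M q - N q‖ * ‖v‖ := (M q - N q).le_opNorm v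
  linarith [norm_sub_norm_le (M q v) (N q v)]
theorem Dom.left {U : V → G →L[ℝ] G''} (hU : ContinuousAt U 0) (h : Dom k M M') :
    Dom k (fun q => U q ∘L M q) M' :=
  Dom.trans (Dom.of_le (‖U 0‖ + 1) ((ev_bd hU).mono fun q hq v =>
    ((U q).le_opNorm (M q v)).trans (mul_le_mul_of_nonneg_right hq (norm_nonneg _)))) h
theorem Dom.of_le_add {G₃ : Type} [NormedAddCommGroup G₃] [NormedSpace ℝ G₃]
    {N : V → F →L[ℝ] G₃} (h : Dom k M M'') (h' : Dom k M' M'')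
    (e : ∀ q v, ‖N q v‖ ≤ ‖M q v‖ + ‖M' q v‖) : Dom k N M'' := by
  obtain ⟨C, ε, h1, h2⟩ := h
  obtain ⟨C', ε', h1', h2'⟩ := h'
  refine ⟨C + C', fun q => ε q + ε' q, h1.add h1', ?_⟩
  filter_upwards [h2, h2'] with q a b v
  linarith [a v, b v, e q v]
theorem Dom.prod (h : Dom k M M'') (h' : Dom k M' M'') :
    Dom k (fun q => (M q).prod (M' q)) M'' :=
  h.of_le_add h' fun q v => max_le (le_add_of_nonneg_right (norm_nonneg _))
    (le_add_of_nonneg_left (norm_nonneg _))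
theorem Dom.add {N : V → F →L[ℝ] G} (h : Dom k M M') (h' : Dom k N M') :
    Dom k (fun q => M q + N q) M' := h.of_le_add h' fun q v => norm_add_le _ _
/-- change of the chart and of the trivialisation -/
theorem Dom.pull {τ : V' → V} {A : V' → F' →L[ℝ] F} (h : Dom k M M') (hτ : DifferentiableAt ℝ τ 0)
    (h0 : τ 0 = 0) (hA : ContinuousAt A 0) :
    Dom k (fun q => M (τ q) ∘L A q) (fun q => M' (τ q) ∘L A q) := by
  obtain ⟨C, ε, -, hε, h1, h2⟩ := h.pos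
  have ht : Tendsto τ (𝓝 0) (𝓝 0) := by simpa only [ContinuousAt, h0] using hτ.continuousAt
  refine ⟨C, fun q => (‖A 0‖ + 1) * ε (τ q), (Flat.comp (h0 ▸ h1) hτ).const_mul _, ?_⟩
  filter_upwards [ht.eventually h2, ev_bd hA] with q a b v
  have h3 : ‖A q v‖ ≤ (‖A 0‖ + 1) * ‖v‖ :=
    ((A q).le_opNorm v).trans (mul_le_mul_of_nonneg_right b (norm_nonneg _))
  have h4 := mul_le_mul_of_nonneg_left h3 (hε (τ q))
  have h5 := a (A q v)
  simp only [ContinuousLinearMap.comp_apply]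
  linarith
theorem Dom.flat {P : V → F' →L[ℝ] F} (h : Dom k M M') (hr : r ≤ k) (hP : ContinuousAt P 0)
    (h' : Flat r (fun q => M' q ∘L P q) 0) : Flat r (fun q => M q ∘L P q) 0 := by
  obtain ⟨C, ε, hC, hε, h1, h2⟩ := (h.pull (τ := id) differentiableAt_id rfl hP).pos
  refine ((h'.norm.const_mul C).add (h1.mono hr)).of_le' (h2.mono fun q hq => ?_)
  refine ContinuousLinearMap.opNorm_le_bound _
    (add_nonneg (mul_nonneg hC (norm_nonneg _)) (hε q)) fun v => (hq v).trans ?_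
  have := mul_le_mul_of_nonneg_left ((M' q ∘L P q).le_opNorm v) hC
  simp only [id]
  linarith
theorem Dom.flat_apply {s : V → F} (h : Dom k M M') (hr : r ≤ k) (hs : ContinuousAt s 0)
    (h' : Flat r (fun q => M' q (s q)) 0) : Flat r (fun q => M q (s q)) 0 := by
  obtain ⟨C, ε, hC, hε, h1, h2⟩ := h.pos
  refine ((h'.norm.const_mul C).add ((h1.mono hr).const_mul (‖s 0‖ + 1))).of_le' ?_
  filter_upwards [h2, ev_bd hs] with q a b
  have := mul_le_mul_of_nonneg_left b (hε q)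
  linarith [a (s q)]
theorem Dom.ker_le (h : Dom k M M') : (M' 0).ker ≤ (M 0).ker := by
  obtain ⟨C, ε, h1, h2⟩ := h
  intro v hv
  have h3 := h2.self_of_nhds v
  have hv' : M' 0 v = 0 := hv
  rw [hv', h1.eq_zero, norm_zero, mul_zero, zero_mul, add_zero] at h3
  exact norm_le_zero_iff.1 h3
theorem Eqv.refl (M : V → F →L[ℝ] G) : Eqv k M M := ⟨Dom.refl M, Dom.refl M⟩
theorem Eqv.symm (h : Eqv k M M') : Eqv k M' M := ⟨h.2, h.1⟩
theorem Eqv.trans (h : Eqv k M M') (h' : Eqv k M' M'') : Eqv k M M'' :=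
  ⟨h.1.trans h'.1, h'.2.trans h.2⟩
theorem Eqv.mono (h : Eqv k M M') (hr : r ≤ k) : Eqv r M M' := ⟨h.1.mono hr, h.2.mono hr⟩
theorem Eqv.congr {N : V → F →L[ℝ] G} {N' : V → F →L[ℝ] G'} (h : Eqv k M M')
    (e : N =ᶠ[𝓝 0] M) (e' : N' =ᶠ[𝓝 0] M') : Eqv k N N' := ⟨h.1.congr e e', h.2.congr e' e⟩
theorem Eqv.of_flat {N : V → F →L[ℝ] G} (h : Flat k (fun q => M q - N q) 0) : Eqv k M N :=
  ⟨Dom.of_flat h, Dom.of_flat (by simpa only [neg_sub] using h.neg)⟩
theorem Eqv.pull {τ : V' → V} {A : V' → F' →L[ℝ] F} (h : Eqv k M M') (hτ : DifferentiableAt ℝ τ 0)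
    (h0 : τ 0 = 0) (hA : ContinuousAt A 0) :
    Eqv k (fun q => M (τ q) ∘L A q) (fun q => M' (τ q) ∘L A q) :=
  ⟨h.1.pull hτ h0 hA, h.2.pull hτ h0 hA⟩
theorem Eqv.ker_eq (h : Eqv k M M') : (M 0).ker = (M' 0).ker := le_antisymm h.2.ker_le h.1.ker_le

/-- the easy half needs no continuity of `M` -/
theorem Dom.flat_cmp {P : V → F →L[ℝ] F} (h : Dom k M (cmp P)) (hP : ContinuousAt P 0)
    (hi : ∀ᶠ q in 𝓝 (0 : V), P q * P q = P q) : Flat k (fun q => M q ∘L P q) 0 := by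
  refine h.flat le_rfl hP (Flat.zero.congr (hi.mono fun q hq => ?_))
  change (1 - P q) * P q = 0
  rw [sub_mul, one_mul, hq, sub_self]
/-- equations `M` follow from the equations of the range of `P` iff `M P` is flat -/
theorem dom_cmp_iff {P : V → F →L[ℝ] F} (hM : ContinuousAt M 0) (hP : ContinuousAt P 0)
    (hi : ∀ᶠ q in 𝓝 (0 : V), P q * P q = P q) :
    Dom k M (cmp P) ↔ Flat k (fun q => M q ∘L P q) 0 := by
  refine ⟨fun h => h.flat_cmp hP hi, fun h => ?_⟩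
  refine Dom.trans (Dom.of_flat (N := fun q => M q ∘L cmp P q) (h.congr
    (Eventually.of_forall fun q => ?_))) (Dom.left hM (Dom.refl _))
  ext v
  simp [cmp]
theorem ker_cmp {P : V → F →L[ℝ] F} {q : V} (hi : P q * P q = P q) :
    (cmp P q).ker = (P q).range := by
  ext v
  constructor
  · intro h
    have h' : v - P q v = 0 := h
    exact ⟨v, (sub_eq_zero.1 h').symm⟩
  · rintro ⟨w, rfl⟩
    change P q w - (P q * P q) w = 0
    rw [hi, sub_self]
/-- two fields of projections with the same range at `0` -/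
theorem Dom.cmp_symm [FiniteDimensional ℝ F] {P Q : V → F →L[ℝ] F} (h : Dom k (cmp P) (cmp Q))
    (hP : ContinuousAt P 0) (hQ : ContinuousAt Q 0) (hi : ∀ᶠ q in 𝓝 (0 : V), P q * P q = P q)
    (hj : ∀ᶠ q in 𝓝 (0 : V), Q q * Q q = Q q)
    (hr : Module.finrank ℝ (P 0).range ≤ Module.finrank ℝ (Q 0).range) :
    Dom k (cmp Q) (cmp P) := by
  have hQ' : ContinuousAt (cmp Q) 0 := continuousAt_const.sub hQ
  have hP' : ContinuousAt (cmp P) 0 := continuousAt_const.sub hP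
  have i0 := hi.self_of_nhds
  have j0 := hj.self_of_nhds
  have h1 := h.ker_le
  rw [ker_cmp i0, ker_cmp j0] at h1
  have h2 := Submodule.eq_of_le_of_finrank_le h1 hr
  have pq : P 0 * Q 0 = Q 0 := by
    ext v
    have : Q 0 v ∈ (cmp P 0).ker := by rw [ker_cmp i0]; exact h1 ⟨v, rfl⟩
    have h' : Q 0 v - P 0 (Q 0 v) = 0 := this
    exact (sub_eq_zero.1 h').symm
  have qp : Q 0 * P 0 = P 0 := by
    ext v
    have : P 0 v ∈ (cmp Q 0).ker := by rw [ker_cmp j0, h2]; exact ⟨v, rfl⟩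
    have h' : P 0 v - Q 0 (P 0 v) = 0 := this
    exact (sub_eq_zero.1 h').symm
  set S : F →L[ℝ] F := 1 + P 0 - Q 0 with hS
  set E : V → F →L[ℝ] F := fun q => 1 - (P q * Q q + (1 - P q) * (1 - Q q)) * S with hE
  have E0 : E 0 = 0 := by
    simp only [hE, hS, mul_add, mul_sub, add_mul, sub_mul, mul_one, one_mul, pq, qp, i0, j0]
    abel
  have Ec : ContinuousAt E 0 := by
    refine continuousAt_const.sub (ContinuousAt.mul (ContinuousAt.add (hP.mul hQ)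
      (hP'.mul hQ')) continuousAt_const)
  have Es : ∀ᶠ q in 𝓝 (0 : V), ‖E q‖ ≤ 1 / 2 :=
    Ec.norm.eventually_le_const (by simp only [E0, norm_zero]; norm_num)
  have h3 : Flat k (fun q => (cmp Q q ∘L (cmp P q ∘L Q q)) ∘L S) 0 :=
    ((h.flat_cmp hQ hj).comp_right hQ').comp_left (N := fun _ => S) continuousAt_const
  refine (dom_cmp_iff hQ' hP hi).2 (h3.of_le 2 ?_)
  filter_upwards [hi, hj, Es] with q a b c
  have e : cmp Q q ∘L P q = (cmp Q q ∘L P q) * E q - (cmp Q q ∘L (cmp P q ∘L Q q)) ∘L S := by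
    change (1 - Q q) * P q = (1 - Q q) * P q * (1 - (P q * Q q + (1 - P q) * (1 - Q q)) * S) -
      (1 - Q q) * ((1 - P q) * Q q) * S
    have e1 : P q * (P q * Q q + (1 - P q) * (1 - Q q)) = P q * Q q := by
      rw [mul_add, ← mul_assoc, ← mul_assoc, a, mul_sub (P q) 1, mul_one, a, sub_self, zero_mul,
        add_zero]
    have e2 : (1 - Q q) * ((1 - P q) * Q q) = -((1 - Q q) * (P q * Q q)) := by
      rw [sub_mul 1 (P q), one_mul, mul_sub, sub_mul 1 (Q q) (Q q), one_mul, b, sub_self, zero_sub]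
    rw [mul_sub, mul_one, mul_assoc (1 - Q q) (P q), ← mul_assoc (P q), e1, e2, ← mul_assoc,
      neg_mul, sub_neg_eq_add, sub_add_cancel]
  have n1 := norm_sub_le ((cmp Q q ∘L P q) * E q) ((cmp Q q ∘L (cmp P q ∘L Q q)) ∘L S)
  rw [← e] at n1
  have n2 := (norm_mul_le (cmp Q q ∘L P q) (E q)).trans
    (mul_le_mul_of_nonneg_left c (norm_nonneg _))
  linarith

end Vale.Agent.P207Z
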