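import Vale.Agent.P207Z.Sys

/-!
# P207: little-o calculus, flat maps
-/

set_option linter.all false

open Set Filter Topology Metric Asymptotics
open scoped ContDiff

noncomputable section

namespace Vale.Agent.P207Z

variable {V V' W W' W'' F F' G G' G'' : Type} [NormedAddCommGroup V] [NormedSpace ℝ V]
  [NormedAddCommGroup V'] [NormedSpace ℝ V'] [NormedAddCommGroup W] [NormedSpace ℝ W]
  [NormedAddCommGroup W'] [NormedSpace ℝ W'] [NormedAddCommGroup W''] [NormedSpace ℝ W'']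
  [NormedAddCommGroup F] [NormedSpace ℝ F] [NormedAddCommGroup F'] [NormedSpace ℝ F']
  [NormedAddCommGroup G] [NormedSpace ℝ G] [NormedAddCommGroup G'] [NormedSpace ℝ G']
  [NormedAddCommGroup G''] [NormedSpace ℝ G'']
  {k r n : ℕ} {f g : V → W} {z : V}

theorem rad_pos (n : ℕ) : 0 < rad n := by unfold rad; positivity
theorem rad_anti {n n' : ℕ} (h : n ≤ n') : rad n' ≤ rad n :=
  inv_anti₀ (by positivity) (by exact_mod_cast Nat.succ_le_succ h)
theorem rad_le_one (n : ℕ) : rad n ≤ 1 := (rad_anti (Nat.zero_le n)).trans_eq (by simp [rad])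
theorem exists_rad_le {ε : ℝ} (hε : 0 < ε) : ∃ n, ∀ n' ≥ n, rad n' ≤ ε := by
  obtain ⟨n, hn⟩ := exists_nat_one_div_lt hε
  exact ⟨n, fun n' h => (rad_anti h).trans (by rw [one_div] at hn; exact hn.le)⟩

theorem CalcAux.ev_bd {T : Type} [TopologicalSpace T] {x : T} {g : T → W} (hg : ContinuousAt g x) :
    ∀ᶠ q in 𝓝 x, ‖g q‖ ≤ ‖g x‖ + 1 :=
  hg.norm.eventually_le_const (lt_add_one _)

open CalcAux

/-! ### `Flat` -/

theorem Flat.zero : Flat k (fun _ : V => (0 : W)) z := isLittleO_zero _ _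
theorem Flat.mono (h : Flat k f z) (hr : r ≤ k) : Flat r f z := by
  refine IsLittleO.trans_isBigO h (IsBigO.of_bound 1 ?_)
  filter_upwards [ball_mem_nhds z one_pos] with q hq
  rw [mem_ball, dist_eq_norm] at hq
  rw [one_mul, norm_pow, norm_pow, norm_norm]
  exact pow_le_pow_of_le_one (norm_nonneg _) hq.le hr
theorem Flat.add (h : Flat k f z) (h' : Flat k g z) : Flat k (fun q => f q + g q) z :=
  IsLittleO.add h h'
theorem Flat.sub (h : Flat k f z) (h' : Flat k g z) : Flat k (fun q => f q - g q) z :=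
  IsLittleO.sub h h'
theorem Flat.neg (h : Flat k f z) : Flat k (fun q => -f q) z := IsLittleO.neg_left h
theorem Flat.sum {ι : Type} {s : Finset ι} {f : ι → V → W} (h : ∀ i ∈ s, Flat k (f i) z) :
    Flat k (fun q => ∑ i ∈ s, f i q) z :=
  (IsLittleO.sum h).congr_left fun q => Finset.sum_apply q s f
theorem Flat.congr (h : Flat k f z) (e : g =ᶠ[𝓝 z] f) : Flat k g z := e.trans_isLittleO h
theorem Flat.of_le {g : V → W'} (h : Flat k f z) (C : ℝ) (e : ∀ᶠ q in 𝓝 z, ‖g q‖ ≤ C * ‖f q‖) :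
    Flat k g z := (IsBigO.of_bound C e).trans_isLittleO h
theorem Flat.norm (h : Flat k f z) : Flat k (fun q => ‖f q‖) z := IsLittleO.norm_left h
theorem Flat.of_pow {C : ℝ} (e : ∀ᶠ q in 𝓝 z, ‖f q‖ ≤ C * ‖q - z‖ ^ (k + 1)) : Flat k f z := by
  refine Flat.of_le (f := fun q => ‖q - z‖ ^ (k + 1))
    (isLittleO_pow_sub_pow_sub z (Nat.lt_succ_self k)) C ?_
  simpa only [norm_pow, norm_norm] using e
theorem flat_zero_iff : Flat 0 f z ↔ Tendsto f (𝓝 z) (𝓝 0) := by
  simp only [Flat, pow_zero]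
  exact isLittleO_one_iff ℝ
theorem Flat.tendsto (h : Flat k f z) : Tendsto f (𝓝 z) (𝓝 0) :=
  flat_zero_iff.1 (h.mono (Nat.zero_le k))
theorem Flat.eq_zero (h : Flat k f z) : f z = 0 :=
  tendsto_nhds_unique (tendsto_pure_nhds f z) (h.tendsto.mono_left (pure_le_nhds z))
theorem Flat.const_mul {ε : V → ℝ} (h : Flat k ε z) (C : ℝ) : Flat k (fun q => C * ε q) z :=
  IsLittleO.const_mul_left h C
/-- comparison with a real valued flat function -/
theorem Flat.of_le' {ε : V → ℝ} (h : Flat k ε z) (e : ∀ᶠ q in 𝓝 z, ‖f q‖ ≤ ε q) : Flat k f z :=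
  h.of_le 1 (e.mono fun q hq => by rw [one_mul]; exact hq.trans (le_abs_self _))
theorem Flat.of_le_mul {g : V → W'} {u : V → W''} (h : Flat k f z) (hu : ContinuousAt u z)
    {C : ℝ} (hC : 0 ≤ C) (e : ∀ q, ‖g q‖ ≤ C * ‖f q‖ * ‖u q‖) : Flat k g z := by
  refine h.of_le (C * (‖u z‖ + 1)) ?_
  filter_upwards [ev_bd hu] with q hq
  calc _ ≤ C * ‖f q‖ * (‖u z‖ + 1) := (e q).trans (mul_le_mul_of_nonneg_left hq (by positivity))
    _ = _ := by ring
theorem Flat.bilin_left (B : W →L[ℝ] W' →L[ℝ] W'') {g : V → W'} (h : Flat k f z)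
    (hg : ContinuousAt g z) : Flat k (fun q => B (f q) (g q)) z :=
  h.of_le_mul hg (norm_nonneg B) fun q => B.le_opNorm₂ _ _
theorem Flat.bilin_right (B : W' →L[ℝ] W →L[ℝ] W'') {g : V → W'} (h : Flat k f z)
    (hg : ContinuousAt g z) : Flat k (fun q => B (g q) (f q)) z := h.bilin_left B.flip hg
theorem Flat.comp_left {M : V → F →L[ℝ] G} {N : V → F' →L[ℝ] F} (h : Flat k M z)
    (hN : ContinuousAt N z) : Flat k (fun q => M q ∘L N q) z :=
  h.of_le_mul hN zero_le_one fun q => by rw [one_mul]; exact (M q).opNorm_comp_le _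
theorem Flat.comp_right {M : V → G →L[ℝ] G'} {N : V → F →L[ℝ] G} (h : Flat k N z)
    (hM : ContinuousAt M z) : Flat k (fun q => M q ∘L N q) z :=
  h.of_le_mul hM zero_le_one fun q => by rw [one_mul, mul_comm]; exact (M q).opNorm_comp_le _
theorem Flat.apply {M : V → F →L[ℝ] G} {s : V → F} (h : Flat k M z) (hs : ContinuousAt s z) :
    Flat k (fun q => M q (s q)) z :=
  h.of_le_mul hs zero_le_one fun q => by rw [one_mul]; exact (M q).le_opNorm _
theorem Flat.clm (L : W →L[ℝ] W') (h : Flat k f z) : Flat k (fun q => L (f q)) z :=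
  h.of_le ‖L‖ (Eventually.of_forall fun q => L.le_opNorm _)
theorem Flat.comp {τ : V' → V} {z' : V'} (h : Flat k f (τ z')) (hτ : DifferentiableAt ℝ τ z') :
    Flat k (fun q => f (τ q)) z' :=
  (IsLittleO.comp_tendsto h hτ.continuousAt).trans_isBigO (hτ.isBigO_sub.norm_norm.pow k)
theorem flat_iff_translate : Flat k f z ↔ Flat k (fun q => f (z + q)) 0 := by
  constructor
  · intro h
    exact Flat.comp (τ := fun q => z + q) (by simpa using h) (by fun_prop)
  · intro h
    have := Flat.comp (τ := fun q => q - z) (z' := z) (f := fun q => f (z + q))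
      (by simpa using h) (by fun_prop)
    simpa using this
theorem flat_clm_iff [FiniteDimensional ℝ F] {M : V → F →L[ℝ] G} :
    Flat k M z ↔ ∀ v, Flat k (fun q => M q v) z := by
  refine ⟨fun h v => h.apply continuousAt_const, fun h => ?_⟩
  obtain ⟨C, -, hC⟩ := (Module.finBasis ℝ F).exists_opNorm_le (F := G)
  refine ((Flat.sum (s := Finset.univ) fun i _ => (h (Module.finBasis ℝ F i)).norm).const_mul
    C).of_le' (Eventually.of_forall fun q => hC (Finset.sum_nonneg fun _ _ => norm_nonneg _)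
      fun i => ?_)
  exact Finset.single_le_sum (f := fun i => ‖M q (Module.finBasis ℝ F i)‖)
    (fun _ _ => norm_nonneg _) (Finset.mem_univ i)
/-- a smooth map respects contact of order `k` -/
theorem Flat.map {Φ : W → W'} (h : Flat k (fun q => f q - g q) z) (hg : ContinuousAt g z)
    (hΦ : ContDiffAt ℝ 1 Φ (g z)) : Flat k (fun q => Φ (f q) - Φ (g q)) z := by
  obtain ⟨K, t, ht, hK⟩ := hΦ.exists_lipschitzOnWith
  have hf : Tendsto f (𝓝 z) (𝓝 (g z)) := by simpa using h.tendsto.add hg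
  refine h.of_le K ?_
  filter_upwards [hf ht, hg ht] with q h1 h2
  simpa only [dist_eq_norm] using hK.dist_le_mul _ h1 _ h2

end Vale.Agent.P207Z
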